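import Vale.Agent.Lib.P039.PermMerge
import Mathlib.Data.Set.Card

/-!
Abstract core: a cubic bipartite graph with a proper 3-edge-colouring is encoded by three
involutions `a0 a1 a2` and a 2-colouring `chi`.  The `(1,2)`-bicoloured cycles play the role of the
faces of the distinguished colour class.
-/

namespace Vale.Agent.Lib.P039

open Equiv Equiv.Perm

/-- A cubic bipartite graph with a proper 3-edge-colouring, as three involutions. -/
structure Gem (V : Type*) where
  a0 : V → V
  a1 : V → V
  a2 : V → V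
  chi : V → Bool
  inv0 : ∀ v, a0 (a0 v) = v
  inv1 : ∀ v, a1 (a1 v) = v
  inv2 : ∀ v, a2 (a2 v) = v
  chi0 : ∀ v, chi (a0 v) = !chi v
  chi1 : ∀ v, chi (a1 v) = !chi v
  chi2 : ∀ v, chi (a2 v) = !chi v
  ne12 : ∀ v, a1 v ≠ a2 v

namespace Gem

variable {V : Type*} (M : Gem V)

/-- Two steps along a `(1,2)`-bicoloured cycle. -/
def theta : Perm V where
  toFun v := M.a1 (M.a2 v)
  invFun v := M.a2 (M.a1 v)
  left_inv v := by simp [M.inv1, M.inv2]
  right_inv v := by simp [M.inv1, M.inv2]

theorem theta_apply (v : V) : M.theta v = M.a1 (M.a2 v) := rfl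

/-- The 2-factor formed by the `(0,1)`-bicoloured cycles, oriented. -/
def rho0 : Perm V where
  toFun v := if M.chi v then M.a1 v else M.a0 v
  invFun v := if M.chi v then M.a0 v else M.a1 v
  left_inv v := by
    by_cases h : M.chi v <;> simp [h, M.chi0, M.chi1, M.inv0, M.inv1]
  right_inv v := by
    by_cases h : M.chi v <;> simp [h, M.chi0, M.chi1, M.inv0, M.inv1]

theorem rho0_apply (v : V) : M.rho0 v = if M.chi v then M.a1 v else M.a0 v := rfl

/-- Admissible oriented 2-factors. -/
def Adm (ρ : Perm V) : Prop :=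
  (∀ v, M.chi v = false → ρ v = M.a0 v) ∧ (∀ v, M.chi v = true → ρ v = M.a1 v ∨ ρ v = M.a2 v)

/-- Feasible oriented 2-factors. -/
def Feas (x1 : V) (P2 : V → Prop) (ρ : Perm V) : Prop :=
  M.Adm ρ ∧ (∀ x, M.chi x = true → (SameCycle M.theta x1 x ∨ P2 x) → ρ x = M.a1 x) ∧
  (∀ x y, SameCycle M.theta x1 x → SameCycle M.theta x1 y → SameCycle ρ x y → x = y)

/-- Points lying on a cycle of `ρ` through the exceptional orbit. -/
def Umem (x1 : V) (ρ : Perm V) (v : V) : Prop := ∃ t, SameCycle M.theta x1 t ∧ SameCycle ρ t v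

/-- The hypotheses of the core theorem. -/
structure Hyp (x1 : V) (P2 : V → Prop) : Prop where
  hx1 : M.chi x1 = true
  exc : ∀ x, M.chi x = true → SameCycle M.theta x1 x ∨ P2 x ∨ M.theta (M.theta x) = x
  h2 : ∀ x y, SameCycle M.theta x1 x → SameCycle M.theta x1 y → SameCycle M.rho0 x y → x = y
  p2cl1 : ∀ v, P2 v → P2 (M.a1 v)
  p2cl2 : ∀ v, P2 v → P2 (M.a2 v)
  p2ch : ∀ v, P2 v → ¬ P2 (M.a0 v)
  conn : ∀ C : V → Prop, (∃ v, C v ∧ ¬ P2 v) →
    (∀ v, ¬ P2 v → C v → (¬ P2 (M.a0 v) → C (M.a0 v)) ∧ (¬ P2 (M.a1 v) → C (M.a1 v)) ∧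
      (¬ P2 (M.a2 v) → C (M.a2 v))) → ∀ v, ¬ P2 v → C v

variable {M}

theorem chi_theta (v : V) : M.chi (M.theta v) = M.chi v := by
  simp [theta_apply, M.chi1, M.chi2]

theorem chi_theta_pow (v : V) (n : ℕ) : M.chi ((M.theta ^ n) v) = M.chi v := by
  induction n with
  | zero => simp
  | succ n ih => rw [pow_succ', Perm.mul_apply, chi_theta, ih]

theorem a1_theta (v : V) : M.a1 (M.theta v) = M.a2 v := by
  simp [theta_apply, M.inv1]

theorem a2_theta_of_quad {x : V} (h : M.theta (M.theta x) = x) : M.a2 (M.theta x) = M.a1 x := by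
  have : M.a1 (M.a2 (M.theta x)) = x := h
  have h2 := congrArg M.a1 this
  rwa [M.inv1] at h2

theorem theta_ne (x : V) : M.theta x ≠ x := by
  intro h
  have : M.a1 (M.a2 x) = x := h
  have h2 := congrArg M.a1 this
  rw [M.inv1] at h2
  exact M.ne12 x h2.symm

section Finite

variable [Finite V]

theorem chi_of_sameCycle {x1 x : V} (hx1 : M.chi x1 = true) (h : SameCycle M.theta x1 x) :
    M.chi x = true := by
  obtain ⟨n, hn⟩ := h.exists_nat_pow_eq
  rw [← hn, chi_theta_pow, hx1]

theorem Umem.apply {x1 : V} {ρ : Perm V} {v : V} (h : M.Umem x1 ρ v) : M.Umem x1 ρ (ρ v) := by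
  obtain ⟨t, ht, hs⟩ := h
  exact ⟨t, ht, sameCycle_apply_right.2 hs⟩

theorem Umem.of_apply {x1 : V} {ρ : Perm V} {v : V} (h : M.Umem x1 ρ (ρ v)) : M.Umem x1 ρ v := by
  obtain ⟨t, ht, hs⟩ := h
  exact ⟨t, ht, sameCycle_apply_right.1 hs⟩

theorem umem_apply_iff {x1 : V} {ρ : Perm V} {v : V} : M.Umem x1 ρ (ρ v) ↔ M.Umem x1 ρ v :=
  ⟨Umem.of_apply, Umem.apply⟩

theorem umem_a0_iff {x1 : V} {P2 : V → Prop} {ρ : Perm V} (hρ : M.Feas x1 P2 ρ) (v : V) :
    M.Umem x1 ρ (M.a0 v) ↔ M.Umem x1 ρ v := by
  by_cases h : M.chi v = true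
  · have h' : M.chi (M.a0 v) = false := by rw [M.chi0, h]; rfl
    have := hρ.1.1 _ h'
    rw [M.inv0] at this
    rw [← umem_apply_iff (ρ := ρ) (v := M.a0 v), this]
  · have h' : M.chi v = false := by simpa using h
    rw [← hρ.1.1 _ h', umem_apply_iff]

/-- The toggle lemma: switching along a quadrilateral which straddles the boundary of the
reached set enlarges the reached set and keeps feasibility. -/
theorem toggle [DecidableEq V] {x1 : V} {P2 : V → Prop} (H : M.Hyp x1 P2) {ρ : Perm V}
    (hρ : M.Feas x1 P2 ρ) {x : V} (hx : M.chi x = true) (hxO : ¬ SameCycle M.theta x1 x)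
    (hxP : ¬ P2 x) (hq : M.theta (M.theta x) = x)
    (hxU : M.Umem x1 ρ x) (hyU : ¬ M.Umem x1 ρ (M.theta x)) :
    M.Feas x1 P2 (ρ * swap x (M.theta x)) ∧
      (∀ v, M.Umem x1 ρ v → M.Umem x1 (ρ * swap x (M.theta x)) v) ∧
      M.Umem x1 (ρ * swap x (M.theta x)) (M.theta x) := by
  set y := M.theta x with hy
  have hychi : M.chi y = true := by rw [hy, chi_theta, hx]
  have ha1y : M.a1 y = M.a2 x := a1_theta x
  have ha2y : M.a2 y = M.a1 x := a2_theta_of_quad hq
  have hxy : x ≠ y := fun h => theta_ne x h.symm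
  have hyO : ¬ SameCycle M.theta x1 y := by
    intro h
    apply hxO
    have := sameCycle_apply_right.2 h
    rwa [hq] at this
  have hyP : ¬ P2 y := by
    intro h
    apply hxP
    have h1 := H.p2cl1 _ h
    rw [ha1y] at h1
    have h2 := H.p2cl2 _ h1
    rwa [M.inv2] at h2
  have hnsc : ¬ SameCycle ρ x y := by
    intro h
    obtain ⟨t, ht, hs⟩ := hxU
    exact hyU ⟨t, ht, hs.trans h⟩
  -- data for the merge lemmas
  let T : V → Prop := fun p => p = x ∨ p = y
  have hTτ : ∀ p, T p → T (swap x y p) := by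
    rintro p (rfl | rfl)
    · right; simp
    · left; simp
  have hfix : ∀ p, ¬ T p → swap x y p = p := by
    intro p hp
    have h1 : p ≠ x := fun h => hp (Or.inl h)
    have h2 : p ≠ y := fun h => hp (Or.inr h)
    exact swap_apply_of_ne_of_ne h1 h2
  have htrans : ∀ p, T p → SameCycle (swap x y) x p := by
    rintro p (rfl | rfl)
    · exact SameCycle.refl _ _
    · exact ⟨1, by simp⟩
  have hdist : ∀ p q, T p → T q → SameCycle ρ p q → p = q := by
    rintro p q (rfl | rfl) (rfl | rfl) h
    · rfl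
    · exact absurd h hnsc
    · exact absurd h.symm hnsc
    · rfl
  have hmerge : ∀ t, T t → ∀ v, SameCycle ρ t v → SameCycle (ρ * swap x y) x v :=
    fun t ht v hv => merge_sameCycle ρ (swap x y) T x hTτ hfix htrans hdist t ht v hv
  refine ⟨⟨⟨?_, ?_⟩, ?_, ?_⟩, ?_, ?_⟩
  · -- white vertices
    intro v hv
    have h1 : v ≠ x := by rintro rfl; rw [hx] at hv; cases hv
    have h2 : v ≠ y := by rintro rfl; rw [hychi] at hv; cases hv
    rw [Perm.mul_apply, swap_apply_of_ne_of_ne h1 h2]
    exact hρ.1.1 v hv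
  · -- black vertices
    intro v hv
    by_cases h1 : v = x
    · subst h1
      rw [Perm.mul_apply, swap_apply_left]
      rcases hρ.1.2 y hychi with h | h
      · right; rw [h, ha1y]
      · left; rw [h, ha2y]
    · by_cases h2 : v = y
      · subst h2
        rw [Perm.mul_apply, swap_apply_right]
        rcases hρ.1.2 x hx with h | h
        · right; rw [h, ha2y]
        · left; rw [h, ha1y]
      · rw [Perm.mul_apply, swap_apply_of_ne_of_ne h1 h2]
        exact hρ.1.2 v hv
  · -- the exceptional faces are untouched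
    intro v hv hOP
    have h1 : v ≠ x := by
      rintro rfl
      rcases hOP with h | h
      · exact hxO h
      · exact hxP h
    have h2 : v ≠ y := by
      rintro rfl
      rcases hOP with h | h
      · exact hyO h
      · exact hyP h
    rw [Perm.mul_apply, swap_apply_of_ne_of_ne h1 h2]
    exact hρ.2.1 v hv hOP
  · -- distinctness
    intro p q hp hq' hpq
    rcases merge_sameCycle_imp ρ (swap x y) T hTτ hfix p q hpq with h | ⟨⟨t1, ht1, hs1⟩, ⟨t2, ht2, hs2⟩⟩
    · exact hρ.2.2 p q hp hq' h
    · have e1 : t1 = x := by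
        rcases ht1 with h | h
        · exact h
        · exfalso; subst h; exact hyU ⟨p, hp, hs1.symm⟩
      have e2 : t2 = x := by
        rcases ht2 with h | h
        · exact h
        · exfalso; subst h; exact hyU ⟨q, hq', hs2.symm⟩
      subst e1
      subst e2
      exact hρ.2.2 p q hp hq' (hs1.symm.trans hs2)
  · -- monotonicity
    rintro v ⟨t, ht, hs⟩
    by_cases hxt : SameCycle ρ x t
    · have h1 := hmerge x (Or.inl rfl) t hxt
      have h2 := hmerge x (Or.inl rfl) v (hxt.trans hs)
      exact ⟨t, ht, h1.symm.trans h2⟩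
    · refine ⟨t, ht, merge_unchanged ρ (swap x y) T hfix t v ?_ hs⟩
      rintro s (rfl | rfl) h
      · exact hxt h
      · exact hyU ⟨t, ht, h.symm⟩
  · -- the new point
    obtain ⟨t, ht, hs⟩ := hxU
    have h1 := hmerge x (Or.inl rfl) t hs.symm
    have h2 := hmerge y (Or.inr rfl) y (SameCycle.refl _ _)
    exact ⟨t, ht, h1.symm.trans h2⟩

/-- Closure lemma: if no quadrilateral straddles the boundary of the reached set, then every
vertex is reached. -/
theorem closure {x1 : V} {P2 : V → Prop} (H : M.Hyp x1 P2) {ρ : Perm V}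
    (hρ : M.Feas x1 P2 ρ)
    (hno : ∀ x, M.chi x = true → ¬ SameCycle M.theta x1 x → ¬ P2 x →
      (M.Umem x1 ρ x ↔ M.Umem x1 ρ (M.theta x))) :
    ∀ v, M.Umem x1 ρ v := by
  -- key claim on black vertices off the second exceptional face
  have key : ∀ x, M.chi x = true → ¬ P2 x →
      (M.Umem x1 ρ (M.a1 x) ↔ M.Umem x1 ρ x) ∧ (M.Umem x1 ρ (M.a2 x) ↔ M.Umem x1 ρ x) := by
    intro x hx hxP
    by_cases hxO : SameCycle M.theta x1 x
    · have hU : M.Umem x1 ρ x := ⟨x, hxO, SameCycle.refl _ _⟩
      have h1 : M.Umem x1 ρ (M.a1 x) := by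
        rw [← hρ.2.1 x hx (Or.inl hxO)]; exact hU.apply
      have hO' : SameCycle M.theta x1 (M.theta x) := sameCycle_apply_right.2 hxO
      have h2 : M.Umem x1 ρ (M.a2 x) := by
        have hc : M.chi (M.theta x) = true := by rw [chi_theta, hx]
        have := hρ.2.1 _ hc (Or.inl hO')
        rw [a1_theta] at this
        rw [← this]
        exact Umem.apply ⟨_, hO', SameCycle.refl _ _⟩
      exact ⟨⟨fun _ => hU, fun _ => h1⟩, ⟨fun _ => hU, fun _ => h2⟩⟩
    · have hq : M.theta (M.theta x) = x := by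
        rcases H.exc x hx with h | h | h
        · exact absurd h hxO
        · exact absurd h hxP
        · exact h
      set y := M.theta x with hy
      have hychi : M.chi y = true := by rw [hy, chi_theta, hx]
      have ha1y : M.a1 y = M.a2 x := a1_theta x
      have ha2y : M.a2 y = M.a1 x := a2_theta_of_quad hq
      have hxy : y ≠ x := theta_ne x
      have hiff := hno x hx hxO hxP
      have hne : ρ y ≠ ρ x := fun h => hxy (ρ.injective h)
      rcases hρ.1.2 x hx with h | h
      · have hy' : ρ y = M.a2 x := by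
          rcases hρ.1.2 y hychi with h' | h'
          · rw [h', ha1y]
          · exfalso; apply hne; rw [h', ha2y, h]
        constructor
        · rw [← h, umem_apply_iff]
        · rw [← hy', umem_apply_iff]; exact hiff.symm
      · have hy' : ρ y = M.a1 x := by
          rcases hρ.1.2 y hychi with h' | h'
          · exfalso; apply hne; rw [h', ha1y, h]
          · rw [h', ha2y]
        constructor
        · rw [← hy', umem_apply_iff]; exact hiff.symm
        · rw [← h, umem_apply_iff]
  have hx1U : M.Umem x1 ρ x1 := ⟨x1, SameCycle.refl _ _, SameCycle.refl _ _⟩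
  have hstart : ∃ v, M.Umem x1 ρ v ∧ ¬ P2 v := by
    by_cases hP : P2 x1
    · refine ⟨M.a0 (M.a1 x1), ?_, H.p2ch _ (H.p2cl1 _ hP)⟩
      rw [umem_a0_iff hρ, ← hρ.2.1 x1 H.hx1 (Or.inl (SameCycle.refl _ _))]
      exact hx1U.apply
    · exact ⟨x1, hx1U, hP⟩
  have hoff : ∀ v, ¬ P2 v → M.Umem x1 ρ v := by
    refine H.conn (M.Umem x1 ρ) hstart ?_
    intro v hvP hvU
    refine ⟨fun _ => (umem_a0_iff hρ v).2 hvU, ?_, ?_⟩
    · intro hP
      by_cases hc : M.chi v = true
      · exact ((key v hc hvP).1).2 hvU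
      · have hc' : M.chi (M.a1 v) = true := by
          rw [M.chi1]; simpa using hc
        have := (key _ hc' hP).1
        rw [M.inv1] at this
        exact this.1 hvU
    · intro hP
      by_cases hc : M.chi v = true
      · exact ((key v hc hvP).2).2 hvU
      · have hc' : M.chi (M.a2 v) = true := by
          rw [M.chi2]; simpa using hc
        have := (key _ hc' hP).2
        rw [M.inv2] at this
        exact this.1 hvU
  intro v
  by_cases hP : P2 v
  · exact (umem_a0_iff hρ v).1 (hoff _ (H.p2ch v hP))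
  · exact hoff v hP

theorem rho0_feas {x1 : V} {P2 : V → Prop} (H : M.Hyp x1 P2) : M.Feas x1 P2 M.rho0 := by
  refine ⟨⟨?_, ?_⟩, ?_, H.h2⟩
  · intro v hv; simp [rho0_apply, hv]
  · intro v hv; left; simp [rho0_apply, hv]
  · intro v hv _; simp [rho0_apply, hv]

/-- There is a feasible oriented 2-factor all of whose cycles meet the exceptional orbit. -/
theorem exists_full {x1 : V} {P2 : V → Prop} (H : M.Hyp x1 P2) :
    ∃ ρ : Perm V, M.Feas x1 P2 ρ ∧ ∀ v, M.Umem x1 ρ v := by
  classical
  have main : ∀ k : ℕ, ∀ ρ : Perm V, M.Feas x1 P2 ρ → {v | ¬ M.Umem x1 ρ v}.ncard = k →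
      ∃ ρ' : Perm V, M.Feas x1 P2 ρ' ∧ ∀ v, M.Umem x1 ρ' v := by
    intro k
    induction k using Nat.strong_induction_on with
    | _ k ih =>
      intro ρ hρ hk
      by_cases hall : ∀ v, M.Umem x1 ρ v
      · exact ⟨ρ, hρ, hall⟩
      · have hex : ∃ x, M.chi x = true ∧ ¬ SameCycle M.theta x1 x ∧ ¬ P2 x ∧
            ¬ (M.Umem x1 ρ x ↔ M.Umem x1 ρ (M.theta x)) := by
          by_contra hc
          apply hall
          apply closure H hρ
          intro x h1 h2 h3
          by_contra h4
          exact hc ⟨x, h1, h2, h3, h4⟩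
        obtain ⟨x, hx, hxO, hxP, hxU⟩ := hex
        have hq : M.theta (M.theta x) = x := by
          rcases H.exc x hx with h | h | h
          · exact absurd h hxO
          · exact absurd h hxP
          · exact h
        -- normalise so that x is reached and theta x is not
        have hex2 : ∃ z, M.chi z = true ∧ ¬ SameCycle M.theta x1 z ∧ ¬ P2 z ∧
            M.theta (M.theta z) = z ∧ M.Umem x1 ρ z ∧ ¬ M.Umem x1 ρ (M.theta z) := by
          by_cases hU : M.Umem x1 ρ x
          · refine ⟨x, hx, hxO, hxP, hq, hU, ?_⟩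
            intro h; exact hxU ⟨fun _ => h, fun _ => hU⟩
          · have hU' : M.Umem x1 ρ (M.theta x) := by
              by_contra h; exact hxU ⟨fun h' => absurd h' hU, fun h' => absurd h' h⟩
            refine ⟨M.theta x, by rw [chi_theta, hx], ?_, ?_, by rw [hq], hU', by rw [hq]; exact hU⟩
            · intro h
              apply hxO
              have := sameCycle_apply_right.2 h
              rwa [hq] at this
            · intro h
              apply hxP
              have h1 := H.p2cl1 _ h
              rw [a1_theta] at h1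
              have h2 := H.p2cl2 _ h1
              rwa [M.inv2] at h2
        obtain ⟨z, hz, hzO, hzP, hzq, hzU, hzU'⟩ := hex2
        obtain ⟨hfeas, hmono, hnew⟩ := toggle H hρ hz hzO hzP hzq hzU hzU'
        have hsub : {v | ¬ M.Umem x1 (ρ * swap z (M.theta z)) v} ⊂ {v | ¬ M.Umem x1 ρ v} := by
          refine ⟨fun v hv hv' => hv (hmono v hv'), ?_⟩
          intro hsup
          exact hsup (show M.theta z ∈ {v | ¬ M.Umem x1 ρ v} from hzU') hnew
        have hlt := Set.ncard_lt_ncard hsub (Set.toFinite _)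
        rw [hk] at hlt
        exact ih _ hlt _ hfeas rfl
  exact main _ M.rho0 (rho0_feas H) rfl

/-- The core theorem: there is a cyclic permutation of the vertices moving every vertex to one of
its three neighbours. -/
theorem core {x1 : V} {P2 : V → Prop} (H : M.Hyp x1 P2) :
    ∃ π : Perm V, (∀ v, π v = M.a0 v ∨ π v = M.a1 v ∨ π v = M.a2 v) ∧
      ∀ u v, SameCycle π u v := by
  classical
  obtain ⟨ρ, hρ, hall⟩ := exists_full H
  let τ := M.theta.cycleOf x1
  let T : V → Prop := fun p => SameCycle M.theta x1 p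
  have hTτ : ∀ p, T p → T (τ p) := by
    intro p hp
    have : τ p = M.theta p := SameCycle.cycleOf_apply hp
    rw [this]
    exact sameCycle_apply_right.2 hp
  have hfix : ∀ p, ¬ T p → τ p = p := fun p hp => cycleOf_apply_of_not_sameCycle hp
  have htrans : ∀ p, T p → SameCycle τ x1 p := by
    intro p hp
    obtain ⟨n, hn⟩ := SameCycle.exists_nat_pow_eq hp
    refine ⟨(n : ℤ), ?_⟩
    rw [zpow_natCast, cycleOf_pow_apply_self, hn]
  have hmerge : ∀ v, SameCycle (ρ * τ) x1 v := by
    intro v
    obtain ⟨t, ht, hs⟩ := hall v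
    exact merge_sameCycle ρ τ T x1 hTτ hfix htrans hρ.2.2 t ht v hs
  refine ⟨ρ * τ, ?_, fun u v => (hmerge u).symm.trans (hmerge v)⟩
  intro v
  rw [Perm.mul_apply]
  by_cases hv : T v
  · have e : τ v = M.theta v := SameCycle.cycleOf_apply hv
    have hc : M.chi (M.theta v) = true := by
      rw [chi_theta]; exact chi_of_sameCycle H.hx1 hv
    have := hρ.2.1 _ hc (Or.inl (sameCycle_apply_right.2 hv))
    right; right
    rw [e, this, a1_theta]
  · rw [hfix v hv]
    by_cases hc : M.chi v = true
    · rcases hρ.1.2 v hc with h | h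
      · right; left; exact h
      · right; right; exact h
    · left; exact hρ.1.1 v (by simpa using hc)

end Finite

end Gem

end Vale.Agent.Lib.P039
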