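import Mathlib.Combinatorics.SimpleGraph.Dart
import Mathlib.GroupTheory.Perm.Cycle.Basic

/-!
Rotation systems (combinatorial embeddings of a graph in a closed orientable surface) and their
faces.
-/

namespace Vale.Agent.Lib.P039

/-- A rotation system on a simple graph `G`: a permutation `rot` of the darts (oriented edges) of
`G` which sends every dart to a dart with the same tail and permutes the darts at each vertex
cyclically; `rot d` is the dart that follows `d` in the cyclic order around the tail of `d`.
A rotation system on a connected graph is the combinatorial form of a cellular embedding of the
graph in a closed orientable surface. -/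
structure RotSys {V : Type*} (G : SimpleGraph V) where
  /-- the next dart around the tail vertex -/
  rot : Equiv.Perm G.Dart
  rot_fst : ∀ d : G.Dart, (rot d).fst = d.fst
  rot_cyclic : ∀ d e : G.Dart, d.fst = e.fst → ∃ n : ℕ, (rot ^ n) d = e

/-- The face permutation of a rotation system: `face d` is the dart that follows `d` on the
boundary walk of the face on one fixed side of `d`; it starts at the head of `d` and is the
successor, in the rotation at that vertex, of the reversed dart.  The faces of the embedding are
the orbits of this permutation, and the number of darts in the orbit of `d` is the size of the
face through `d`.  The face on the other side of the edge of `d` is the one through `d.symm`. -/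
def RotSys.face {V : Type*} {G : SimpleGraph V} (R : RotSys G) : Equiv.Perm G.Dart :=
  (Function.Involutive.toPerm SimpleGraph.Dart.symm SimpleGraph.Dart.symm_involutive).trans R.rot

/-- The vertex `v` lies on the boundary of the face through the dart `d0`. -/
def RotSys.OnFace {V : Type*} {G : SimpleGraph V} (R : RotSys G) (d0 : G.Dart) (v : V) : Prop :=
  ∃ d : G.Dart, R.face.SameCycle d0 d ∧ d.fst = v

end Vale.Agent.Lib.P039
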