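import Mathlib.Combinatorics.SimpleGraph.Hamiltonian
import Mathlib.Combinatorics.SimpleGraph.CycleGraph
import Mathlib.GroupTheory.Perm.Cycle.Basic

/-!
A cyclic permutation of the vertex set that moves every vertex to a neighbour gives a
Hamiltonian cycle.
-/

namespace Vale.Agent.Lib.P039

open Equiv Equiv.Perm SimpleGraph

theorem isHamiltonian_of_perm {V : Type*} [Fintype V] [DecidableEq V] (G : SimpleGraph V)
    (π : Perm V) (hadj : ∀ v, G.Adj v (π v)) (hcyc : ∀ u v, π.SameCycle u v)
    (hcard : 3 ≤ Fintype.card V) : G.IsHamiltonian := by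
  intro _
  obtain ⟨n, hn⟩ : ∃ n, Fintype.card V = n + 3 := ⟨Fintype.card V - 3, by omega⟩
  have hne : Nonempty V := by
    rw [← Fintype.card_pos_iff]; omega
  obtain ⟨a⟩ := hne
  have hon : π.IsCycleOn ((Finset.univ : Finset V) : Set V) := by
    refine ⟨by simp, fun x _ y _ => hcyc x y⟩
  have hcardu : (Finset.univ : Finset V).card = n + 3 := by rw [Finset.card_univ, hn]
  have hper : (π ^ (n + 3)) a = a := by
    rw [hon.pow_apply_eq (Finset.mem_univ a), hcardu]
  have hmod : ∀ m : ℕ, (π ^ (m % (n + 3))) a = (π ^ m) a := by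
    intro m
    have h := hon.pow_apply_eq_pow_apply (Finset.mem_univ a) (m := m % (n + 3)) (n := m)
    rw [hcardu] at h
    exact h.2 (Nat.mod_modEq m (n + 3))
  let f : Fin (n + 3) → V := fun i => (π ^ (i : ℕ)) a
  have hstep : ∀ u v : Fin (n + 3), u - v = 1 → f u = π (f v) := by
    intro u v h
    have hu : u = v + 1 := by rw [← h]; simp
    show (π ^ (u : ℕ)) a = π ((π ^ (v : ℕ)) a)
    rw [hu, Fin.val_add, ← Perm.mul_apply, ← pow_succ', hmod]
    simp
  let fh : cycleGraph (n + 3) →g G :=
    { toFun := f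
      map_rel' := by
        intro u v h
        rw [cycleGraph_adj] at h
        rcases h with h | h
        · rw [hstep u v h]; exact (hadj _).symm
        · rw [hstep v u h]; exact hadj _ }
  have hinj : Function.Injective f := by
    intro i j hij
    have h := (hon.pow_apply_eq_pow_apply (Finset.mem_univ a) (m := (i : ℕ)) (n := (j : ℕ))).1 hij
    rw [hcardu] at h
    exact Fin.ext (h.eq_of_lt_of_lt i.2 j.2)
  have hbij : Function.Bijective fh := by
    refine (Fintype.bijective_iff_injective_and_card f).2 ⟨hinj, ?_⟩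
    rw [Fintype.card_fin, hn]
  have hp : (cycleGraph.cycle n).IsHamiltonianCycle := by
    rw [Walk.isHamiltonianCycle_iff_isCycle_and_length_eq]
    exact ⟨cycleGraph.isCycle_cycle, by simp⟩
  exact ⟨fh 0, (cycleGraph.cycle n).map fh, hp.map hbij⟩

end Vale.Agent.Lib.P039
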