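import Vale.Agent.Lib.P039.Defs
import Mathlib.Combinatorics.SimpleGraph.DegreeSum
import Mathlib.Combinatorics.SimpleGraph.Finite

/-!
Local structure of a cubic graph with a rotation system and a proper 3-colouring of the faces.
-/

namespace Vale.Agent.Lib.P039

open SimpleGraph

theorem fin3_cover : ∀ a b c j : Fin 3, a ≠ b → a ≠ c → b ≠ c → j = a ∨ j = b ∨ j = c := by
  decide
theorem fin3_a : ∀ a x : Fin 3, x ≠ a + 1 → x ≠ a → x = a + 1 + 1 := by decide
theorem fin3_b : ∀ a : Fin 3, a = a + 1 + 1 + 1 := by decide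
theorem fin3_c : ∀ a b : Fin 3, b ≠ a → b = a + 1 ∨ b = a + 2 := by decide
theorem fin3_d : ∀ a : Fin 3, a + 1 ≠ a + 2 := by decide
theorem fin3_e : ∀ a : Fin 3, a + 1 + 2 = a := by decide
theorem fin3_f : ∀ a : Fin 3, a + 2 + 1 = a := by decide
theorem fin3_g : ∀ a : Fin 3, a + 2 + 2 = a + 1 := by decide
theorem fin3_h : ∀ a : Fin 3, a + 1 + 1 = a + 2 := by decide
theorem fin3_i : ∀ a : Fin 3, a ≠ a + 1 + 1 := by decide
theorem fin3_j : ∀ a : Fin 3, a ≠ a + 2 + 2 := by decide

/-- A cubic graph with a rotation system whose faces are properly 3-coloured. -/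
structure ColMap {V : Type*} [Fintype V] [DecidableEq V] (G : SimpleGraph V)
    [DecidableRel G.Adj] : Type _ where
  R : RotSys G
  c : G.Dart → Fin 3
  cubic : G.IsRegularOfDegree 3
  hface : ∀ d, c (R.face d) = c d
  hproper : ∀ d : G.Dart, c d.symm ≠ c d

namespace ColMap

variable {V : Type*} [Fintype V] [DecidableEq V] {G : SimpleGraph V} [DecidableRel G.Adj]
  (X : ColMap G)

include X

theorem face_apply (d : G.Dart) : X.R.face d = X.R.rot d.symm := rfl

theorem face_fst (d : G.Dart) : (X.R.face d).fst = d.snd := by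
  rw [face_apply, X.R.rot_fst]; rfl

theorem c_rot (d : G.Dart) : X.c (X.R.rot d) = X.c d.symm := by
  have := X.hface d.symm
  rwa [face_apply, Dart.symm_symm] at this

theorem c_rot_ne (d : G.Dart) : X.c (X.R.rot d) ≠ X.c d := by
  rw [c_rot]; exact X.hproper d

theorem rot_ne (d : G.Dart) : X.R.rot d ≠ d := fun h => X.c_rot_ne d (by rw [h])

theorem dartsAt_card (v : V) : (Finset.univ.filter (fun d : G.Dart => d.fst = v)).card = 3 := by
  rw [G.dart_fst_fiber_card_eq_degree v, X.cubic v]

theorem rot_rot_ne (d : G.Dart) : X.R.rot (X.R.rot d) ≠ d := by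
  intro h
  have hall : ∀ n : ℕ, (X.R.rot ^ n) d = d ∨ (X.R.rot ^ n) d = X.R.rot d := by
    intro n
    induction n with
    | zero => left; rfl
    | succ n ih =>
      rw [pow_succ', Equiv.Perm.mul_apply]
      rcases ih with h' | h'
      · right; rw [h']
      · left; rw [h', h]
  have hsub : (Finset.univ.filter (fun e : G.Dart => e.fst = d.fst)) ⊆ {d, X.R.rot d} := by
    intro e he
    rw [Finset.mem_filter] at he
    obtain ⟨n, hn⟩ := X.R.rot_cyclic d e he.2.symm
    rw [← hn]
    rcases hall n with h' | h'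
    · rw [h']; simp
    · rw [h']; simp
  have := Finset.card_le_card hsub
  rw [X.dartsAt_card] at this
  have h2 : ({d, X.R.rot d} : Finset G.Dart).card ≤ 2 := Finset.card_le_two
  omega

theorem dartsAt_eq (d : G.Dart) :
    (Finset.univ.filter (fun e : G.Dart => e.fst = d.fst)) =
      {d, X.R.rot d, X.R.rot (X.R.rot d)} := by
  symm
  apply Finset.eq_of_subset_of_card_le
  · intro e he
    simp only [Finset.mem_insert, Finset.mem_singleton] at he
    rw [Finset.mem_filter]
    refine ⟨Finset.mem_univ _, ?_⟩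
    rcases he with rfl | rfl | rfl
    · rfl
    · exact X.R.rot_fst d
    · rw [X.R.rot_fst, X.R.rot_fst]
  · rw [X.dartsAt_card]
    have : ({d, X.R.rot d, X.R.rot (X.R.rot d)} : Finset G.Dart).card = 3 := by
      rw [Finset.card_eq_three]
      exact ⟨d, X.R.rot d, X.R.rot (X.R.rot d), (X.rot_ne d).symm, (X.rot_rot_ne d).symm,
        (X.rot_ne _).symm, rfl⟩
    omega

/-- Every dart at the tail of `d` is `d`, `rot d` or `rot (rot d)`. -/
theorem dart_cases (d e : G.Dart) (h : e.fst = d.fst) :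
    e = d ∨ e = X.R.rot d ∨ e = X.R.rot (X.R.rot d) := by
  have : e ∈ (Finset.univ.filter (fun e : G.Dart => e.fst = d.fst)) := by
    rw [Finset.mem_filter]; exact ⟨Finset.mem_univ _, h⟩
  rw [X.dartsAt_eq d] at this
  simpa using this

theorem rot3 (d : G.Dart) : X.R.rot (X.R.rot (X.R.rot d)) = d := by
  have h : (X.R.rot (X.R.rot (X.R.rot d))).fst = d.fst := by
    rw [X.R.rot_fst, X.R.rot_fst, X.R.rot_fst]
  rcases X.dart_cases d _ h with h' | h' | h'
  · exact h'
  · exfalso
    exact X.rot_rot_ne d (X.R.rot.injective h')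
  · exfalso
    exact X.rot_ne _ h'

theorem c_rot_rot_ne (d : G.Dart) : X.c (X.R.rot (X.R.rot d)) ≠ X.c d := by
  intro h
  have := X.c_rot_ne (X.R.rot (X.R.rot d))
  rw [X.rot3] at this
  exact this h.symm

/-- Darts with the same tail and the same colour are equal. -/
theorem dart_unique (d e : G.Dart) (h : e.fst = d.fst) (hc : X.c e = X.c d) : e = d := by
  rcases X.dart_cases d e h with h' | h' | h'
  · exact h'
  · exfalso; rw [h'] at hc; exact X.c_rot_ne d hc
  · exfalso; rw [h'] at hc; exact X.c_rot_rot_ne d hc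


theorem exists_dart (v : V) (j : Fin 3) : ∃ d : G.Dart, d.fst = v ∧ X.c d = j := by
  have hdeg : G.degree v = 3 := X.cubic v
  have hpos : 0 < (G.neighborFinset v).card := by
    rw [card_neighborFinset_eq_degree, hdeg]; omega
  obtain ⟨w, hw⟩ := Finset.card_pos.1 hpos
  rw [mem_neighborFinset] at hw
  let d : G.Dart := ⟨(v, w), hw⟩
  rcases fin3_cover (X.c d) (X.c (X.R.rot d)) (X.c (X.R.rot (X.R.rot d))) j
    (X.c_rot_ne d).symm (X.c_rot_rot_ne d).symm (X.c_rot_ne _).symm with h | h | h
  · exact ⟨d, rfl, h.symm⟩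
  · exact ⟨X.R.rot d, X.R.rot_fst d, h.symm⟩
  · exact ⟨X.R.rot (X.R.rot d), by rw [X.R.rot_fst, X.R.rot_fst], h.symm⟩

/-- The dart at `v` whose face has colour `j`. -/
noncomputable def dartAt (v : V) (j : Fin 3) : G.Dart := Classical.choose (X.exists_dart v j)

theorem dartAt_fst (v : V) (j : Fin 3) : (X.dartAt v j).fst = v :=
  (Classical.choose_spec (X.exists_dart v j)).1

theorem dartAt_c (v : V) (j : Fin 3) : X.c (X.dartAt v j) = j :=
  (Classical.choose_spec (X.exists_dart v j)).2

theorem eq_dartAt (d : G.Dart) : d = X.dartAt d.fst (X.c d) :=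
  X.dart_unique _ _ (X.dartAt_fst _ _).symm (X.dartAt_c _ _).symm

theorem eq_dartAt' (d : G.Dart) (v : V) (j : Fin 3) (hv : d.fst = v) (hj : X.c d = j) :
    d = X.dartAt v j := by
  subst hv; subst hj; exact X.eq_dartAt d

/-- The orientation class of a vertex. -/
noncomputable def chi (v : V) : Bool :=
  decide (∃ d : G.Dart, d.fst = v ∧ X.c (X.R.rot d) = X.c d + 1)


theorem plus_one_of (d e : G.Dart) (h : e.fst = d.fst)
    (hd : X.c (X.R.rot d) = X.c d + 1) : X.c (X.R.rot e) = X.c e + 1 := by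
  have h2 : X.c (X.R.rot (X.R.rot d)) = X.c d + 1 + 1 := by
    apply fin3_a
    · rw [← hd]; exact X.c_rot_ne _
    · exact X.c_rot_rot_ne d
  rcases X.dart_cases d e h with h' | h' | h'
  · rw [h']; exact hd
  · rw [h', h2, hd]
  · rw [h', X.rot3, h2]; exact fin3_b _

theorem c_rot_of_chi (d : G.Dart) (h : X.chi d.fst = true) : X.c (X.R.rot d) = X.c d + 1 := by
  unfold chi at h
  rw [decide_eq_true_eq] at h
  obtain ⟨e, he, hc⟩ := h
  exact X.plus_one_of e d he.symm hc

theorem c_rot_of_not_chi (d : G.Dart) (h : X.chi d.fst = false) :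
    X.c (X.R.rot d) = X.c d + 2 := by
  rcases fin3_c _ _ (X.c_rot_ne d) with h' | h'
  · exfalso
    unfold chi at h
    rw [decide_eq_false_iff_not] at h
    exact h ⟨d, rfl, h'⟩
  · exact h'

theorem c_symm_of_chi (d : G.Dart) (h : X.chi d.fst = true) : X.c d.symm = X.c d + 1 := by
  rw [← c_rot]; exact X.c_rot_of_chi d h

theorem c_symm_of_not_chi (d : G.Dart) (h : X.chi d.fst = false) : X.c d.symm = X.c d + 2 := by
  rw [← c_rot]; exact X.c_rot_of_not_chi d h


theorem chi_snd (d : G.Dart) : X.chi d.snd = !X.chi d.fst := by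
  have hs : d.symm.fst = d.snd := rfl
  have hr : X.c (X.R.rot d.symm) = X.c d := by rw [c_rot, Dart.symm_symm]
  by_cases h : X.chi d.fst = true
  · rw [h]
    have h1 := X.c_symm_of_chi d h
    by_contra hc
    have hc' : X.chi d.symm.fst = true := by rw [hs]; simpa using hc
    have h2 := X.c_rot_of_chi d.symm hc'
    rw [hr, h1] at h2
    exact fin3_i _ h2
  · have h' : X.chi d.fst = false := by simpa using h
    rw [h']
    have h1 := X.c_symm_of_not_chi d h'
    by_contra hc
    have hc' : X.chi d.symm.fst = false := by rw [hs]; simpa using hc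
    have h2 := X.c_rot_of_not_chi d.symm hc'
    rw [hr, h1] at h2
    exact fin3_j _ h2

end ColMap

end Vale.Agent.Lib.P039
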