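import Vale.Agent.Lib.P039.Local
import Vale.Agent.Lib.P039.Core

/-!
From a cubic map with properly 3-coloured faces to three involutions.
-/

namespace Vale.Agent.Lib.P039

open SimpleGraph Equiv Equiv.Perm

theorem fin3_k : ∀ a b : Fin 3, a + 1 = b + 1 → a = b := by decide
theorem fin3_l : ∀ a b : Fin 3, a + 2 = b + 2 → a = b := by decide

namespace ColMap

variable {V : Type*} [Fintype V] [DecidableEq V] {G : SimpleGraph V} [DecidableRel G.Adj]
  (X : ColMap G)

/-- The neighbour of `v` along the edge neither of whose sides has colour `j`. -/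
noncomputable def nb (j : Fin 3) (v : V) : V :=
  (X.dartAt v (if X.chi v then j + 1 else j + 2)).snd

theorem nb_adj (j : Fin 3) (v : V) : G.Adj v (X.nb j v) := by
  have h := (X.dartAt v (if X.chi v then j + 1 else j + 2)).adj
  rw [X.dartAt_fst] at h
  exact h

theorem chi_nb (j : Fin 3) (v : V) : X.chi (X.nb j v) = !X.chi v := by
  unfold nb
  rw [X.chi_snd, X.dartAt_fst]

theorem nb_of_chi (j : Fin 3) (v : V) (h : X.chi v = true) :
    X.nb j v = (X.dartAt v (j + 1)).snd := by
  unfold nb; rw [h]; rfl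

theorem nb_of_not_chi (j : Fin 3) (v : V) (h : X.chi v = false) :
    X.nb j v = (X.dartAt v (j + 2)).snd := by
  unfold nb; rw [h]; rfl

theorem nb_nb (j : Fin 3) (v : V) : X.nb j (X.nb j v) = v := by
  have hchi := X.chi_nb j v
  by_cases h : X.chi v = true
  · have hw : X.chi (X.nb j v) = false := by rw [hchi, h]; rfl
    have e1 : X.nb j v = (X.dartAt v (j + 1)).snd := X.nb_of_chi j v h
    have e2 : X.nb j (X.nb j v) = (X.dartAt (X.nb j v) (j + 2)).snd := X.nb_of_not_chi j _ hw
    set d := X.dartAt v (j + 1) with hd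
    have hdf : d.fst = v := X.dartAt_fst _ _
    have hc : X.c d.symm = j + 2 := by
      rw [X.c_symm_of_chi d (by rw [hdf]; exact h), hd, X.dartAt_c, fin3_h]
    have hs : d.symm = X.dartAt (X.nb j v) (j + 2) := by
      apply X.eq_dartAt' _ _ _ _ hc
      rw [e1]; rfl
    rw [e2, ← hs]
    exact hdf
  · have h' : X.chi v = false := by simpa using h
    have hw : X.chi (X.nb j v) = true := by rw [hchi, h']; rfl
    have e1 : X.nb j v = (X.dartAt v (j + 2)).snd := X.nb_of_not_chi j v h'
    have e2 : X.nb j (X.nb j v) = (X.dartAt (X.nb j v) (j + 1)).snd := X.nb_of_chi j _ hw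
    set d := X.dartAt v (j + 2) with hd
    have hdf : d.fst = v := X.dartAt_fst _ _
    have hc : X.c d.symm = j + 1 := by
      rw [X.c_symm_of_not_chi d (by rw [hdf]; exact h'), hd, X.dartAt_c, fin3_g]
    have hs : d.symm = X.dartAt (X.nb j v) (j + 1) := by
      apply X.eq_dartAt' _ _ _ _ hc
      rw [e1]; rfl
    rw [e2, ← hs]
    exact hdf

theorem nb_ne (j j' : Fin 3) (hj : j ≠ j') (v : V) : X.nb j v ≠ X.nb j' v := by
  intro h
  unfold nb at h
  have hd : X.dartAt v (if X.chi v then j + 1 else j + 2) =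
      X.dartAt v (if X.chi v then j' + 1 else j' + 2) := by
    apply Dart.ext
    apply Prod.ext
    · rw [X.dartAt_fst, X.dartAt_fst]
    · exact h
  have hc := congrArg X.c hd
  rw [X.dartAt_c, X.dartAt_c] at hc
  by_cases hv : X.chi v = true
  · rw [hv] at hc
    exact hj (fin3_k _ _ hc)
  · have hv' : X.chi v = false := by simpa using hv
    rw [hv'] at hc
    exact hj (fin3_l _ _ (by simpa using hc))

/-- Every neighbour is reached by one of the three colours. -/
theorem nb_cover (d : G.Dart) : ∃ j : Fin 3, d.snd = X.nb j d.fst := by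
  by_cases hv : X.chi d.fst = true
  · refine ⟨X.c d + 2, ?_⟩
    unfold nb
    rw [hv]
    simp only [if_true]
    rw [fin3_f, ← X.eq_dartAt d]
  · have hv' : X.chi d.fst = false := by simpa using hv
    refine ⟨X.c d + 1, ?_⟩
    unfold nb
    rw [hv']
    simp only [Bool.false_eq_true, if_false]
    rw [fin3_e, ← X.eq_dartAt d]

theorem face_dartAt (v : V) (j : Fin 3) :
    X.R.face (X.dartAt v j) = X.dartAt (X.dartAt v j).snd j := by
  apply X.eq_dartAt'
  · exact X.face_fst _
  · rw [X.hface, X.dartAt_c]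

theorem dartAt_snd_of_chi (v : V) (j : Fin 3) (h : X.chi v = true) :
    (X.dartAt v j).snd = X.nb (j + 2) v := by
  unfold nb
  rw [h]
  simp only [if_true]
  rw [fin3_f]

theorem dartAt_snd_of_not_chi (v : V) (j : Fin 3) (h : X.chi v = false) :
    (X.dartAt v j).snd = X.nb (j + 1) v := by
  unfold nb
  rw [h]
  simp only [Bool.false_eq_true, if_false]
  rw [fin3_e]

/-- The three involutions attached to the colour class `κ`. -/
noncomputable def gem (κ : Fin 3) : Gem V where
  a0 := X.nb κ
  a1 := X.nb (κ + 1)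
  a2 := X.nb (κ + 2)
  chi := X.chi
  inv0 := X.nb_nb _
  inv1 := X.nb_nb _
  inv2 := X.nb_nb _
  chi0 := X.chi_nb _
  chi1 := X.chi_nb _
  chi2 := X.chi_nb _
  ne12 := X.nb_ne _ _ (fin3_d κ)

end ColMap

end Vale.Agent.Lib.P039
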