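import Mathlib.GroupTheory.Perm.Cycle.Factors

/-!
Merging cycles of a permutation: if `τ` moves only points of a set `T` on which it acts
transitively, and distinct points of `T` lie in distinct cycles of `ρ`, then the cycles of
`ρ * τ` are the cycles of `ρ` not meeting `T` together with one cycle which is the union of
all cycles of `ρ` meeting `T`.
-/

namespace Vale.Agent.Lib.P039

open Equiv Equiv.Perm

variable {V : Type*} [Finite V]

/-- Along one cycle of `ρ`, the product `ρ * τ` follows `ρ`. -/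
theorem merge_pow_eq (ρ τ : Perm V) (T : V → Prop)
    (hfix : ∀ p, ¬ T p → τ p = p)
    (hdist : ∀ p q, T p → T q → SameCycle ρ p q → p = q)
    (t : V) (hu : T (τ t)) :
    ∀ n : ℕ, (∀ j, 1 ≤ j → j ≤ n → (ρ ^ j) (τ t) ≠ τ t) →
      ((ρ * τ) ^ (n + 1)) t = (ρ ^ (n + 1)) (τ t) := by
  intro n
  induction n with
  | zero =>
    intro _
    simp
  | succ n ih =>
    intro h
    have ih' := ih (fun j h1 h2 => h j h1 (Nat.le_succ_of_le h2))
    have hnT : ¬ T ((ρ ^ (n + 1)) (τ t)) := by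
      intro hT
      have := hdist (τ t) ((ρ ^ (n + 1)) (τ t)) hu hT ⟨((n + 1 : ℕ) : ℤ), by rw [zpow_natCast]⟩
      exact h (n + 1) (by omega) le_rfl this.symm
    rw [pow_succ' (ρ * τ), Perm.mul_apply, ih', Perm.mul_apply, hfix _ hnT, pow_succ' ρ (n + 1),
      Perm.mul_apply]

/-- Every point of the `ρ`-cycle of `τ t` lies in the `(ρ * τ)`-cycle of `t`. -/
theorem merge_step (ρ τ : Perm V) (T : V → Prop)
    (hfix : ∀ p, ¬ T p → τ p = p)
    (hdist : ∀ p q, T p → T q → SameCycle ρ p q → p = q)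
    (t : V) (hu : T (τ t)) (v : V) (hv : SameCycle ρ (τ t) v) :
    SameCycle (ρ * τ) t v := by
  classical
  obtain ⟨i, hi0, _, hi⟩ := hv.exists_pow_eq''
  have hex : ∃ n : ℕ, (ρ ^ (n + 1)) (τ t) = v := ⟨i - 1, by
    have : i - 1 + 1 = i := by omega
    rw [this]; exact hi⟩
  let n := Nat.find hex
  have hn : (ρ ^ (n + 1)) (τ t) = v := Nat.find_spec hex
  have hmin : ∀ j, 1 ≤ j → j ≤ n → (ρ ^ j) (τ t) ≠ τ t := by
    intro j h1 h2 hj
    have hlt : n - j < n := by omega
    have : (ρ ^ (n - j + 1)) (τ t) = v := by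
      have e : n + 1 = (n - j + 1) + j := by omega
      rw [e, pow_add, Perm.mul_apply, hj] at hn
      exact hn
    exact Nat.find_min hex hlt this
  have := merge_pow_eq ρ τ T hfix hdist t hu n hmin
  rw [hn] at this
  exact ⟨((n + 1 : ℕ) : ℤ), by rw [zpow_natCast]; exact this⟩

/-- Merge lemma: all cycles of `ρ` meeting `T` lie in one cycle of `ρ * τ`. -/
theorem merge_sameCycle (ρ τ : Perm V) (T : V → Prop) (x0 : V)
    (hTτ : ∀ p, T p → T (τ p))
    (hfix : ∀ p, ¬ T p → τ p = p)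
    (htrans : ∀ p, T p → SameCycle τ x0 p)
    (hdist : ∀ p q, T p → T q → SameCycle ρ p q → p = q)
    (t : V) (ht : T t) (v : V) (hv : SameCycle ρ t v) : SameCycle (ρ * τ) x0 v := by
  have hT0 : T x0 := by
    obtain ⟨n, hn⟩ := (htrans t ht).symm.exists_nat_pow_eq
    rw [← hn]
    clear hn
    induction n with
    | zero => simpa using ht
    | succ n ih => rw [pow_succ', Perm.mul_apply]; exact hTτ _ ih
  have hpowT : ∀ n : ℕ, T ((τ ^ n) x0) := by
    intro n
    induction n with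
    | zero => simpa using hT0
    | succ n ih => rw [pow_succ', Perm.mul_apply]; exact hTτ _ ih
  -- all points of T are in the cycle of x0
  have hall : ∀ n : ℕ, SameCycle (ρ * τ) x0 ((τ ^ n) x0) := by
    intro n
    induction n with
    | zero => simpa using SameCycle.refl _ _
    | succ n ih =>
      refine ih.trans ?_
      have h1 : T (τ ((τ ^ n) x0)) := hTτ _ (hpowT n)
      have := merge_step ρ τ T hfix hdist ((τ ^ n) x0) h1 (τ ((τ ^ n) x0)) (SameCycle.refl _ _)
      rw [pow_succ', Perm.mul_apply]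
      exact this
  have e : τ (τ⁻¹ t) = t := by simp
  have hinv : T (τ⁻¹ t) := by
    by_contra hc
    have := hfix _ hc
    rw [e] at this
    rw [← this] at hc
    exact hc ht
  obtain ⟨n, hn⟩ := (htrans _ hinv).exists_nat_pow_eq
  have h1 : SameCycle (ρ * τ) x0 (τ⁻¹ t) := hn ▸ hall n
  refine h1.trans ?_
  have hu : T (τ (τ⁻¹ t)) := by rw [e]; exact ht
  refine merge_step ρ τ T hfix hdist (τ⁻¹ t) hu v ?_
  rw [e]; exact hv

/-- Converse of the merge lemma: a cycle of `ρ * τ` is either a cycle of `ρ` or is contained in the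
union of the cycles of `ρ` meeting `T`. -/
theorem merge_sameCycle_imp (ρ τ : Perm V) (T : V → Prop)
    (hTτ : ∀ p, T p → T (τ p))
    (hfix : ∀ p, ¬ T p → τ p = p)
    (p q : V) (h : SameCycle (ρ * τ) p q) :
    SameCycle ρ p q ∨ ((∃ t, T t ∧ SameCycle ρ t p) ∧ (∃ t, T t ∧ SameCycle ρ t q)) := by
  obtain ⟨n, hn⟩ := h.exists_nat_pow_eq
  rw [← hn]
  clear hn h
  induction n with
  | zero => left; simpa using SameCycle.refl _ _
  | succ n ih =>
    rw [pow_succ', Perm.mul_apply]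
    set a := ((ρ * τ) ^ n) p with ha
    have hstep : SameCycle ρ a ((ρ * τ) a) ∨
        ((∃ t, T t ∧ SameCycle ρ t a) ∧ (∃ t, T t ∧ SameCycle ρ t ((ρ * τ) a))) := by
      by_cases hT : T a
      · right
        refine ⟨⟨a, hT, SameCycle.refl _ _⟩, ⟨τ a, hTτ _ hT, ?_⟩⟩
        rw [Perm.mul_apply]
        exact sameCycle_apply_right.2 (SameCycle.refl _ _)
      · left
        rw [Perm.mul_apply, hfix _ hT]
        exact sameCycle_apply_right.2 (SameCycle.refl _ _)
    rcases ih with ih | ⟨⟨t1, ht1, hs1⟩, ⟨t2, ht2, hs2⟩⟩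
    · rcases hstep with hs | ⟨⟨t3, ht3, hs3⟩, ⟨t4, ht4, hs4⟩⟩
      · left; exact ih.trans hs
      · right; exact ⟨⟨t3, ht3, hs3.trans ih.symm⟩, ⟨t4, ht4, hs4⟩⟩
    · rcases hstep with hs | ⟨⟨t3, ht3, hs3⟩, ⟨t4, ht4, hs4⟩⟩
      · right; exact ⟨⟨t1, ht1, hs1⟩, ⟨t2, ht2, hs2.trans hs⟩⟩
      · right; exact ⟨⟨t1, ht1, hs1⟩, ⟨t4, ht4, hs4⟩⟩

/-- Cycles of `ρ` not meeting `T` are unchanged in `ρ * τ`. -/
theorem merge_unchanged (ρ τ : Perm V) (T : V → Prop)
    (hfix : ∀ p, ¬ T p → τ p = p)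
    (t v : V) (hno : ∀ s, T s → ¬ SameCycle ρ s t) (hv : SameCycle ρ t v) :
    SameCycle (ρ * τ) t v := by
  obtain ⟨n, hn⟩ := hv.exists_nat_pow_eq
  have key : ∀ n : ℕ, ((ρ * τ) ^ n) t = (ρ ^ n) t := by
    intro n
    induction n with
    | zero => simp
    | succ n ih =>
      rw [pow_succ', Perm.mul_apply, ih, Perm.mul_apply, pow_succ', Perm.mul_apply]
      congr 1
      apply hfix
      intro hT
      exact hno _ hT ⟨-(n : ℤ), by simp⟩
  exact ⟨(n : ℤ), by rw [zpow_natCast, key, hn]⟩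

end Vale.Agent.Lib.P039
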